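import Mathlib

/-!
# All-order derivative bounds for `expNegInvGlue`

`iteratedDeriv m expNegInvGlue x = P_m(1/x) * expNegInvGlue x` with `P_0 = 1`,
`P_{m+1} = X^2 (P_m - P_m')`, and hence `|iteratedDeriv m expNegInvGlue x| ≤ 8^m (m!)^2`.
-/

namespace Crest.Agent.Helper44

open Polynomial

noncomputable section

/-- The polynomials `P_m` with `iteratedDeriv m expNegInvGlue x = P_m(1/x) * expNegInvGlue x`. -/
def glueP : ℕ → ℝ[X]
  | 0 => 1
  | m + 1 => X ^ 2 * (glueP m - derivative (glueP m))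

theorem iteratedDeriv_expNegInvGlue (m : ℕ) :
    iteratedDeriv m expNegInvGlue = fun x => (glueP m).eval x⁻¹ * expNegInvGlue x := by
  induction m with
  | zero => funext x; simp [glueP]
  | succ m ih =>
    rw [iteratedDeriv_succ, ih]
    funext x
    exact (expNegInvGlue.hasDerivAt_polynomial_eval_inv_mul (glueP m) x).deriv

/-- Weighted coefficient sum `∑_{j<n} |p_j| j!`. -/
def wsum (p : ℝ[X]) (n : ℕ) : ℝ := ∑ j ∈ Finset.range n, |p.coeff j| * (j.factorial : ℝ)

theorem wsum_nonneg (p : ℝ[X]) (n : ℕ) : 0 ≤ wsum p n :=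
  Finset.sum_nonneg fun j _ => mul_nonneg (abs_nonneg _) (by positivity)

theorem pow_mul_exp_neg_le_factorial {u : ℝ} (hu : 0 ≤ u) (j : ℕ) :
    u ^ j * Real.exp (-u) ≤ (j.factorial : ℝ) := by
  have h := Real.pow_div_factorial_le_exp u hu j
  have hf : (0 : ℝ) < j.factorial := by positivity
  rw [div_le_iff₀ hf] at h
  rw [Real.exp_neg]
  rw [← div_eq_mul_inv, div_le_iff₀ (Real.exp_pos u)]
  linarith [mul_comm (Real.exp u) (j.factorial : ℝ)]

theorem abs_eval_inv_mul_glue_le (p : ℝ[X]) (n : ℕ) (hn : p.natDegree < n) (x : ℝ) :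
    |p.eval x⁻¹ * expNegInvGlue x| ≤ wsum p n := by
  rcases le_or_gt x 0 with hx | hx
  · rw [expNegInvGlue.zero_of_nonpos hx, mul_zero, abs_zero]
    exact wsum_nonneg p n
  · have hu : 0 ≤ x⁻¹ := (inv_pos.mpr hx).le
    have hg : expNegInvGlue x = Real.exp (-x⁻¹) := by
      simp [expNegInvGlue, not_le.mpr hx]
    rw [hg, Polynomial.eval_eq_sum_range' hn, Finset.sum_mul]
    refine (Finset.abs_sum_le_sum_abs _ _).trans ?_
    refine Finset.sum_le_sum fun j _ => ?_
    rw [mul_assoc, abs_mul]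
    refine mul_le_mul_of_nonneg_left ?_ (abs_nonneg _)
    rw [abs_of_nonneg (mul_nonneg (pow_nonneg hu j) (Real.exp_pos _).le)]
    exact pow_mul_exp_neg_le_factorial hu j

theorem coeff_step_zero (p : ℝ[X]) : (X ^ 2 * (p - derivative p)).coeff 0 = 0 := by
  rw [Polynomial.coeff_X_pow_mul']; simp

theorem coeff_step_one (p : ℝ[X]) : (X ^ 2 * (p - derivative p)).coeff 1 = 0 := by
  rw [Polynomial.coeff_X_pow_mul']; simp

theorem coeff_step_add_two (p : ℝ[X]) (j : ℕ) :
    (X ^ 2 * (p - derivative p)).coeff (j + 2) = p.coeff j - p.coeff (j + 1) * ((j : ℝ) + 1) := by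
  rw [Polynomial.coeff_X_pow_mul, Polynomial.coeff_sub, Polynomial.coeff_derivative]

theorem wsum_step_le (p : ℝ[X]) (n : ℕ) (hn : p.natDegree < n) :
    wsum (X ^ 2 * (p - derivative p)) (n + 2) ≤ 2 * ((n : ℝ) + 1) ^ 2 * wsum p n := by
  have hpn : p.coeff n = 0 := Polynomial.coeff_eq_zero_of_natDegree_lt hn
  unfold wsum
  rw [Finset.sum_range_succ', Finset.sum_range_succ']
  rw [coeff_step_zero, coeff_step_one]
  simp only [abs_zero, zero_mul, add_zero]
  -- termwise bound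
  have hterm : ∀ j ∈ Finset.range n,
      |(X ^ 2 * (p - derivative p)).coeff (j + 1 + 1)| * ((j + 1 + 1).factorial : ℝ) ≤
        ((n : ℝ) + 1) ^ 2 * (|p.coeff j| * (j.factorial : ℝ)) +
          ((n : ℝ) + 1) ^ 2 * (|p.coeff (j + 1)| * ((j + 1).factorial : ℝ)) := by
    intro j hj
    have hjn : (j : ℝ) + 1 ≤ n := by
      have := Finset.mem_range.mp hj
      exact_mod_cast this
    have hj0 : (0 : ℝ) ≤ j := Nat.cast_nonneg j
    rw [coeff_step_add_two]
    have h1 : ((j + 1 + 1).factorial : ℝ) = ((j : ℝ) + 2) * (((j : ℝ) + 1) * (j.factorial : ℝ)) := by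
      rw [Nat.factorial_succ, Nat.factorial_succ]; push_cast; ring
    have h2 : ((j + 1).factorial : ℝ) = ((j : ℝ) + 1) * (j.factorial : ℝ) := by
      rw [Nat.factorial_succ]; push_cast; ring
    have hfj : (0 : ℝ) ≤ j.factorial := by positivity
    have habs : |p.coeff j - p.coeff (j + 1) * ((j : ℝ) + 1)| ≤
        |p.coeff j| + |p.coeff (j + 1)| * ((j : ℝ) + 1) := by
      refine (abs_sub _ _).trans ?_
      rw [abs_mul, abs_of_nonneg (by linarith : (0 : ℝ) ≤ (j : ℝ) + 1)]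
    rw [h1, h2]
    have ha : 0 ≤ |p.coeff j| := abs_nonneg _
    have hb : 0 ≤ |p.coeff (j + 1)| := abs_nonneg _
    calc |p.coeff j - p.coeff (j + 1) * ((j : ℝ) + 1)| *
          (((j : ℝ) + 2) * (((j : ℝ) + 1) * (j.factorial : ℝ)))
        ≤ (|p.coeff j| + |p.coeff (j + 1)| * ((j : ℝ) + 1)) *
          (((j : ℝ) + 2) * (((j : ℝ) + 1) * (j.factorial : ℝ))) := by
          apply mul_le_mul_of_nonneg_right habs; positivity
      _ = ((j : ℝ) + 2) * ((j : ℝ) + 1) * (|p.coeff j| * (j.factorial : ℝ)) +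
          ((j : ℝ) + 2) * ((j : ℝ) + 1) * (|p.coeff (j + 1)| * (((j : ℝ) + 1) * (j.factorial : ℝ))) := by
          ring
      _ ≤ ((n : ℝ) + 1) ^ 2 * (|p.coeff j| * (j.factorial : ℝ)) +
          ((n : ℝ) + 1) ^ 2 * (|p.coeff (j + 1)| * (((j : ℝ) + 1) * (j.factorial : ℝ))) := by
          have hc : ((j : ℝ) + 2) * ((j : ℝ) + 1) ≤ ((n : ℝ) + 1) ^ 2 := by nlinarith
          have hx1 : 0 ≤ |p.coeff j| * (j.factorial : ℝ) := by positivity
          have hx2 : 0 ≤ |p.coeff (j + 1)| * (((j : ℝ) + 1) * (j.factorial : ℝ)) := by positivity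
          nlinarith
  refine (Finset.sum_le_sum hterm).trans ?_
  rw [Finset.sum_add_distrib, ← Finset.mul_sum, ← Finset.mul_sum]
  have hshift : ∑ j ∈ Finset.range n, |p.coeff (j + 1)| * ((j + 1).factorial : ℝ) ≤
      ∑ j ∈ Finset.range n, |p.coeff j| * (j.factorial : ℝ) := by
    have h := Finset.sum_range_succ' (fun j => |p.coeff j| * (j.factorial : ℝ)) n
    have h' := Finset.sum_range_succ (fun j => |p.coeff j| * (j.factorial : ℝ)) n
    rw [hpn] at h'
    simp only [abs_zero, zero_mul, add_zero] at h'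
    have h0 : 0 ≤ |p.coeff 0| * ((0 : ℕ).factorial : ℝ) := by positivity
    linarith
  have hsq : 0 ≤ ((n : ℝ) + 1) ^ 2 := by positivity
  nlinarith [mul_le_mul_of_nonneg_left hshift hsq]

theorem glueP_natDegree_lt (m : ℕ) : (glueP m).natDegree < 2 * m + 1 := by
  induction m with
  | zero => simp [glueP]
  | succ m ih =>
    have h1 : (glueP m - derivative (glueP m)).natDegree ≤ 2 * m := by
      refine (Polynomial.natDegree_sub_le _ _).trans ?_
      have h2 : (derivative (glueP m)).natDegree ≤ (glueP m).natDegree :=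
        (Polynomial.natDegree_derivative_le _).trans (Nat.sub_le _ _)
      omega
    have h3 : (glueP (m + 1)).natDegree ≤ 2 + 2 * m := by
      unfold glueP
      refine (Polynomial.natDegree_mul_le).trans ?_
      have : (X ^ 2 : ℝ[X]).natDegree ≤ 2 := Polynomial.natDegree_X_pow_le 2
      omega
    omega

theorem wsum_glueP_le (m : ℕ) :
    wsum (glueP m) (2 * m + 1) ≤ 8 ^ m * (m.factorial : ℝ) ^ 2 := by
  induction m with
  | zero =>
    simp [wsum, glueP]
  | succ m ih =>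
    have h := wsum_step_le (glueP m) (2 * m + 1) (glueP_natDegree_lt m)
    have e : 2 * (m + 1) + 1 = 2 * m + 1 + 2 := by ring
    rw [e]
    change wsum (X ^ 2 * (glueP m - derivative (glueP m))) (2 * m + 1 + 2) ≤ _
    refine h.trans ?_
    have hfac : ((m + 1).factorial : ℝ) = ((m : ℝ) + 1) * (m.factorial : ℝ) := by
      rw [Nat.factorial_succ]; push_cast; ring
    rw [hfac]
    have hc : 2 * (((2 * m + 1 : ℕ) : ℝ) + 1) ^ 2 = 8 * ((m : ℝ) + 1) ^ 2 := by
      push_cast; ring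
    rw [hc]
    have h8 : (0 : ℝ) ≤ 8 * ((m : ℝ) + 1) ^ 2 := by positivity
    calc 8 * ((m : ℝ) + 1) ^ 2 * wsum (glueP m) (2 * m + 1)
        ≤ 8 * ((m : ℝ) + 1) ^ 2 * (8 ^ m * (m.factorial : ℝ) ^ 2) :=
          mul_le_mul_of_nonneg_left ih h8
      _ = 8 ^ (m + 1) * (((m : ℝ) + 1) * (m.factorial : ℝ)) ^ 2 := by ring

/-- All-order derivative bound for `expNegInvGlue`. -/
theorem abs_iteratedDeriv_expNegInvGlue_le (m : ℕ) (x : ℝ) :
    |iteratedDeriv m expNegInvGlue x| ≤ 8 ^ m * (m.factorial : ℝ) ^ 2 := by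
  rw [iteratedDeriv_expNegInvGlue]
  exact (abs_eval_inv_mul_glue_le (glueP m) (2 * m + 1) (glueP_natDegree_lt m) x).trans
    (wsum_glueP_le m)

end

end Crest.Agent.Helper44
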