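import Mathlib
import Crest.Agent.Helper44.GlueBound

/-!
# All-order derivative bounds for `Real.smoothTransition`

Pointwise Leibniz bound in the class `|f^(i) x| ≤ A a^i (i!)^2`, and
`|iteratedDeriv m Real.smoothTransition x| ≤ 8 * 144^m * (m!)^2`.
-/

namespace Crest.Agent.Helper44

open scoped ContDiff

noncomputable section

/-- Pointwise Leibniz bound in the Gevrey-2 type class `|f^(i) x| ≤ A a^i (i!)^2`. -/
theorem leibniz_gevrey_bound {f g : ℝ → ℝ} {m : ℕ} {x : ℝ}
    (hf : ContDiffAt ℝ m f x) (hg : ContDiffAt ℝ m g x)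
    {A a B b : ℝ} (hA : 0 ≤ A) (ha : 0 ≤ a) (hB : 0 ≤ B) (hb : 0 ≤ b)
    (hfb : ∀ i ≤ m, |iteratedDeriv i f x| ≤ A * a ^ i * (i.factorial : ℝ) ^ 2)
    (hgb : ∀ i ≤ m, |iteratedDeriv i g x| ≤ B * b ^ i * (i.factorial : ℝ) ^ 2) :
    |iteratedDeriv m (f * g) x| ≤ A * B * (a + b) ^ m * (m.factorial : ℝ) ^ 2 := by
  rw [iteratedDeriv_mul hf hg]
  refine (Finset.abs_sum_le_sum_abs _ _).trans ?_
  have hsum : (a + b) ^ m = ∑ i ∈ Finset.range (m + 1), a ^ i * b ^ (m - i) * (m.choose i : ℝ) :=
    add_pow a b m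
  rw [hsum, Finset.mul_sum, Finset.sum_mul]
  refine Finset.sum_le_sum fun i hi => ?_
  have him : i ≤ m := Nat.lt_succ_iff.mp (Finset.mem_range.mp hi)
  have h1 := hfb i him
  have h2 := hgb (m - i) (Nat.sub_le m i)
  have hfac : ((i.factorial : ℝ) * ((m - i).factorial : ℝ)) ≤ (m.factorial : ℝ) := by
    have := Nat.le_of_dvd (Nat.factorial_pos m) (Nat.factorial_mul_factorial_dvd_factorial him)
    exact_mod_cast this
  have hfi : (0 : ℝ) ≤ i.factorial := by positivity
  have hfmi : (0 : ℝ) ≤ (m - i).factorial := by positivity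
  have hfac2 : (i.factorial : ℝ) ^ 2 * ((m - i).factorial : ℝ) ^ 2 ≤ (m.factorial : ℝ) ^ 2 := by
    rw [← mul_pow]
    exact pow_le_pow_left₀ (by positivity) hfac 2
  have hc : (0 : ℝ) ≤ (m.choose i : ℝ) := by positivity
  rw [abs_mul, abs_mul, abs_of_nonneg hc]
  have hai : 0 ≤ a ^ i := pow_nonneg ha i
  have hbi : 0 ≤ b ^ (m - i) := pow_nonneg hb (m - i)
  calc (m.choose i : ℝ) * |iteratedDeriv i f x| * |iteratedDeriv (m - i) g x|
      ≤ (m.choose i : ℝ) * (A * a ^ i * (i.factorial : ℝ) ^ 2) *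
          (B * b ^ (m - i) * ((m - i).factorial : ℝ) ^ 2) := by
        apply mul_le_mul _ h2 (abs_nonneg _) (by positivity)
        exact mul_le_mul_of_nonneg_left h1 hc
    _ = (A * B * (a ^ i * b ^ (m - i) * (m.choose i : ℝ))) *
          ((i.factorial : ℝ) ^ 2 * ((m - i).factorial : ℝ) ^ 2) := by ring
    _ ≤ (A * B * (a ^ i * b ^ (m - i) * (m.choose i : ℝ))) * (m.factorial : ℝ) ^ 2 := by
        apply mul_le_mul_of_nonneg_left hfac2; positivity
    _ = A * B * (a ^ i * b ^ (m - i) * (m.choose i : ℝ)) * (m.factorial : ℝ) ^ 2 := by ring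

/-- The denominator of `Real.smoothTransition`. -/
def glueDen (x : ℝ) : ℝ := expNegInvGlue x + expNegInvGlue (1 - x)

theorem glueDen_contDiff {n : ℕ∞} : ContDiff ℝ n glueDen :=
  expNegInvGlue.contDiff.add (expNegInvGlue.contDiff.comp (contDiff_const.sub contDiff_id))

theorem exp_neg_two_ge : (1 : ℝ) / 8 ≤ Real.exp (-2) := by
  have h1 : Real.exp 1 < 2.7182818286 := Real.exp_one_lt_d9
  have h2 : Real.exp 2 = Real.exp 1 * Real.exp 1 := by
    rw [← Real.exp_add]; norm_num
  have h3 : Real.exp 2 ≤ 8 := by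
    rw [h2]
    have hpos := Real.exp_pos 1
    nlinarith
  rw [Real.exp_neg, one_div]
  exact inv_anti₀ (Real.exp_pos 2) h3

theorem glueDen_ge (x : ℝ) : (1 : ℝ) / 8 ≤ glueDen x := by
  unfold glueDen
  rcases le_or_gt (1 / 2 : ℝ) x with hx | hx
  · have hx0 : 0 < x := by linarith
    have h1 : expNegInvGlue x = Real.exp (-x⁻¹) := by simp [expNegInvGlue, not_le.mpr hx0]
    have h2 : x⁻¹ ≤ 2 := by
      rw [inv_le_comm₀ hx0 (by norm_num)]; linarith
    have h3 : Real.exp (-2) ≤ Real.exp (-x⁻¹) := Real.exp_le_exp.mpr (by linarith)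
    have h4 := expNegInvGlue.nonneg (1 - x)
    linarith [exp_neg_two_ge]
  · have hx0 : 0 < 1 - x := by linarith
    have h1 : expNegInvGlue (1 - x) = Real.exp (-(1 - x)⁻¹) := by
      simp [expNegInvGlue, not_le.mpr hx0]
    have h2 : (1 - x)⁻¹ ≤ 2 := by
      rw [inv_le_comm₀ hx0 (by norm_num)]; linarith
    have h3 : Real.exp (-2) ≤ Real.exp (-(1 - x)⁻¹) := Real.exp_le_exp.mpr (by linarith)
    have h4 := expNegInvGlue.nonneg x
    linarith [exp_neg_two_ge]

theorem glueDen_pos (x : ℝ) : 0 < glueDen x := lt_of_lt_of_le (by norm_num) (glueDen_ge x)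

theorem abs_iteratedDeriv_glueDen_le (m : ℕ) (x : ℝ) :
    |iteratedDeriv m glueDen x| ≤ 2 * (8 ^ m * (m.factorial : ℝ) ^ 2) := by
  have h1 : glueDen = expNegInvGlue + fun x => expNegInvGlue (1 - x) := rfl
  have hc1 : ContDiffAt ℝ m expNegInvGlue x :=
    (expNegInvGlue.contDiff (n := (m : ℕ∞))).contDiffAt
  have hc2 : ContDiffAt ℝ m (fun x => expNegInvGlue (1 - x)) x :=
    ((expNegInvGlue.contDiff (n := (m : ℕ∞))).comp (contDiff_const.sub contDiff_id)).contDiffAt
  rw [h1, iteratedDeriv_add hc1 hc2, iteratedDeriv_comp_const_sub]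
  have h2 := abs_iteratedDeriv_expNegInvGlue_le m x
  have h3 := abs_iteratedDeriv_expNegInvGlue_le m (1 - x)
  have h4 : |(-1 : ℝ) ^ m • iteratedDeriv m expNegInvGlue (1 - x)| =
      |iteratedDeriv m expNegInvGlue (1 - x)| := by
    rw [smul_eq_mul, abs_mul, abs_pow, abs_neg, abs_one, one_pow, one_mul]
  calc |iteratedDeriv m expNegInvGlue x + (-1 : ℝ) ^ m • iteratedDeriv m expNegInvGlue (1 - x)|
      ≤ |iteratedDeriv m expNegInvGlue x| +
          |(-1 : ℝ) ^ m • iteratedDeriv m expNegInvGlue (1 - x)| := abs_add_le _ _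
    _ ≤ 2 * (8 ^ m * (m.factorial : ℝ) ^ 2) := by rw [h4]; linarith

/-- The reciprocal of the denominator. -/
def glueInv (x : ℝ) : ℝ := (glueDen x)⁻¹

theorem glueInv_contDiff {n : ℕ∞} : ContDiff ℝ n glueInv :=
  glueDen_contDiff.inv fun x => (glueDen_pos x).ne'

theorem geom_aux (m : ℕ) :
    ∑ i ∈ Finset.range m, (8 : ℝ) ^ (i + 1) * 136 ^ (m - 1 - i) ≤ 136 ^ m / 16 := by
  have h := geom_sum₂_mul (8 : ℝ) 136 m
  have h8 : (0 : ℝ) ≤ 8 ^ m := by positivity
  have e : ∑ i ∈ Finset.range m, (8 : ℝ) ^ (i + 1) * 136 ^ (m - 1 - i) =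
      8 * ∑ i ∈ Finset.range m, (8 : ℝ) ^ i * 136 ^ (m - 1 - i) := by
    rw [Finset.mul_sum]
    refine Finset.sum_congr rfl fun i _ => ?_
    ring
  rw [e]
  nlinarith

theorem abs_iteratedDeriv_glueInv_le (m : ℕ) (x : ℝ) :
    |iteratedDeriv m glueInv x| ≤ 8 * 136 ^ m * (m.factorial : ℝ) ^ 2 := by
  induction m using Nat.strong_induction_on with
  | _ m ih =>
    rcases Nat.eq_zero_or_pos m with hm | hm
    · subst hm
      simp only [iteratedDeriv_zero, pow_zero, mul_one, Nat.factorial_zero, Nat.cast_one, one_pow]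
      unfold glueInv
      rw [abs_of_nonneg (inv_nonneg.mpr (glueDen_pos x).le)]
      have h := glueDen_ge x
      rw [inv_le_comm₀ (glueDen_pos x) (by norm_num)]
      linarith
    · have hD : ContDiffAt ℝ m glueDen x := (glueDen_contDiff (n := (m : ℕ∞))).contDiffAt
      have hR : ContDiffAt ℝ m glueInv x := (glueInv_contDiff (n := (m : ℕ∞))).contDiffAt
      have hprod : glueDen * glueInv = fun _ => (1 : ℝ) := by
        funext y
        simp only [Pi.mul_apply, glueInv]
        exact mul_inv_cancel₀ (glueDen_pos y).ne'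
      have hL := iteratedDeriv_mul hD hR
      rw [hprod, iteratedDeriv_const, if_neg hm.ne', Finset.sum_range_succ'] at hL
      simp only [Nat.choose_zero_right, Nat.cast_one, one_mul, iteratedDeriv_zero, Nat.sub_zero]
        at hL
      -- hL : 0 = ∑ i<m, C(m,i+1) * D^(i+1) * R^(m-(i+1)) + D x * R^(m) x
      have hsolve : iteratedDeriv m glueInv x =
          -(glueDen x)⁻¹ * ∑ i ∈ Finset.range m,
            (m.choose (i + 1) : ℝ) * iteratedDeriv (i + 1) glueDen x *
              iteratedDeriv (m - (i + 1)) glueInv x := by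
        have hne := (glueDen_pos x).ne'
        field_simp
        linarith
      rw [hsolve, abs_mul, abs_neg, abs_of_nonneg (inv_nonneg.mpr (glueDen_pos x).le)]
      have hinv : (glueDen x)⁻¹ ≤ 8 := by
        rw [inv_le_comm₀ (glueDen_pos x) (by norm_num)]
        linarith [glueDen_ge x]
      have hsumle : |∑ i ∈ Finset.range m,
            (m.choose (i + 1) : ℝ) * iteratedDeriv (i + 1) glueDen x *
              iteratedDeriv (m - (i + 1)) glueInv x| ≤
          136 ^ m * (m.factorial : ℝ) ^ 2 := by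
        refine (Finset.abs_sum_le_sum_abs _ _).trans ?_
        have hterm : ∀ i ∈ Finset.range m,
            |(m.choose (i + 1) : ℝ) * iteratedDeriv (i + 1) glueDen x *
              iteratedDeriv (m - (i + 1)) glueInv x| ≤
            16 * (m.factorial : ℝ) ^ 2 * ((8 : ℝ) ^ (i + 1) * 136 ^ (m - 1 - i)) := by
          intro i hi
          have him : i + 1 ≤ m := Finset.mem_range.mp hi
          have h1 := abs_iteratedDeriv_glueDen_le (i + 1) x
          have h2 := ih (m - (i + 1)) (by omega)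
          have hc : (0 : ℝ) ≤ (m.choose (i + 1) : ℝ) := by positivity
          rw [abs_mul, abs_mul, abs_of_nonneg hc]
          have hid : (m.choose (i + 1) : ℝ) * ((i + 1).factorial : ℝ) *
              ((m - (i + 1)).factorial : ℝ) = (m.factorial : ℝ) := by
            have := Nat.choose_mul_factorial_mul_factorial him
            exact_mod_cast this
          have hfac : (((i + 1).factorial : ℝ) * ((m - (i + 1)).factorial : ℝ)) ≤
              (m.factorial : ℝ) := by
            have := Nat.le_of_dvd (Nat.factorial_pos m)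
              (Nat.factorial_mul_factorial_dvd_factorial him)
            exact_mod_cast this
          have hsub : m - (i + 1) = m - 1 - i := by omega
          have hf1 : (0 : ℝ) ≤ ((i + 1).factorial : ℝ) := by positivity
          have hf2 : (0 : ℝ) ≤ ((m - (i + 1)).factorial : ℝ) := by positivity
          have hfm : (0 : ℝ) ≤ (m.factorial : ℝ) := by positivity
          calc (m.choose (i + 1) : ℝ) * |iteratedDeriv (i + 1) glueDen x| *
                |iteratedDeriv (m - (i + 1)) glueInv x|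
              ≤ (m.choose (i + 1) : ℝ) * (2 * (8 ^ (i + 1) * ((i + 1).factorial : ℝ) ^ 2)) *
                  (8 * 136 ^ (m - (i + 1)) * ((m - (i + 1)).factorial : ℝ) ^ 2) := by
                apply mul_le_mul _ h2 (abs_nonneg _) (by positivity)
                exact mul_le_mul_of_nonneg_left h1 hc
            _ = 16 * ((m.choose (i + 1) : ℝ) * ((i + 1).factorial : ℝ) *
                  ((m - (i + 1)).factorial : ℝ)) *
                  (((i + 1).factorial : ℝ) * ((m - (i + 1)).factorial : ℝ)) *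
                  ((8 : ℝ) ^ (i + 1) * 136 ^ (m - (i + 1))) := by ring
            _ = 16 * (m.factorial : ℝ) *
                  (((i + 1).factorial : ℝ) * ((m - (i + 1)).factorial : ℝ)) *
                  ((8 : ℝ) ^ (i + 1) * 136 ^ (m - 1 - i)) := by rw [hid, hsub]
            _ ≤ 16 * (m.factorial : ℝ) * (m.factorial : ℝ) *
                  ((8 : ℝ) ^ (i + 1) * 136 ^ (m - 1 - i)) := by
                apply mul_le_mul_of_nonneg_right _ (by positivity)
                apply mul_le_mul_of_nonneg_left hfac (by positivity)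
            _ = 16 * (m.factorial : ℝ) ^ 2 * ((8 : ℝ) ^ (i + 1) * 136 ^ (m - 1 - i)) := by ring
        refine (Finset.sum_le_sum hterm).trans ?_
        rw [← Finset.mul_sum]
        have hg := geom_aux m
        have hfm : (0 : ℝ) ≤ 16 * (m.factorial : ℝ) ^ 2 := by positivity
        calc 16 * (m.factorial : ℝ) ^ 2 *
              ∑ i ∈ Finset.range m, (8 : ℝ) ^ (i + 1) * 136 ^ (m - 1 - i)
            ≤ 16 * (m.factorial : ℝ) ^ 2 * (136 ^ m / 16) :=
              mul_le_mul_of_nonneg_left hg hfm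
          _ = 136 ^ m * (m.factorial : ℝ) ^ 2 := by ring
      calc (glueDen x)⁻¹ * |∑ i ∈ Finset.range m,
            (m.choose (i + 1) : ℝ) * iteratedDeriv (i + 1) glueDen x *
              iteratedDeriv (m - (i + 1)) glueInv x|
          ≤ 8 * (136 ^ m * (m.factorial : ℝ) ^ 2) := by
            apply mul_le_mul hinv hsumle (abs_nonneg _) (by norm_num)
        _ = 8 * 136 ^ m * (m.factorial : ℝ) ^ 2 := by ring

theorem smoothTransition_eq_mul : Real.smoothTransition = expNegInvGlue * glueInv := by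
  funext x
  simp [Real.smoothTransition, glueInv, glueDen, div_eq_mul_inv]

/-- All-order derivative bound for `Real.smoothTransition`. -/
theorem abs_iteratedDeriv_smoothTransition_le (m : ℕ) (x : ℝ) :
    |iteratedDeriv m Real.smoothTransition x| ≤ 8 * 144 ^ m * (m.factorial : ℝ) ^ 2 := by
  rw [smoothTransition_eq_mul]
  have hc1 : ContDiffAt ℝ m expNegInvGlue x :=
    (expNegInvGlue.contDiff (n := (m : ℕ∞))).contDiffAt
  have hc2 : ContDiffAt ℝ m glueInv x := (glueInv_contDiff (n := (m : ℕ∞))).contDiffAt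
  have h := leibniz_gevrey_bound (A := 1) (a := 8) (B := 8) (b := 136) hc1 hc2
    (by norm_num) (by norm_num) (by norm_num) (by norm_num)
    (fun i _ => by simpa using abs_iteratedDeriv_expNegInvGlue_le i x)
    (fun i _ => abs_iteratedDeriv_glueInv_le i x)
  have e : (1 : ℝ) * 8 * (8 + 136) ^ m = 8 * 144 ^ m := by norm_num
  rw [e] at h
  exact h

end

end Crest.Agent.Helper44
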